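import Vale.Agent.P352L.SB.Wd
import Vale.Agent.P352L.Den

/-!
# P352L, job SB: division of a scalar distribution by the mass squared
-/

set_option linter.all false

open MeasureTheory Measure Set Filter Topology
open scoped SchwartzMap ComplexConjugate NNReal ENNReal

namespace Vale.Agent.P352L.Two.Sb

open Vale.Agent.P352 (Mink mft fl ofSch toSchL lam mass2 conjS toL mft_memLp)
open Vale.Agent.P352.GF Vale.Agent.P352.BW Vale.Agent.P352.H496 Vale.Agent.P352.H755
open Vale.Agent.P352.H246 (In linv isLor_linv Wed MW im)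
open Vale.Agent.P352X Vale.Agent.P352X.Two Vale.Agent.P352L.SB
open UniformSpace (Completion)

noncomputable section

abbrev tl : V → Mink := WithLp.toLp 2

lemma meas_tl : Measurable tl := WithLp.measurable_toLp 2 V

lemma meas_of : Measurable (WithLp.ofLp : Mink → V) := WithLp.measurable_ofLp 2 V

lemma mft_eq (F : 𝓢(Mink, ℂ)) : mft F = fun p => ft (fl F) p.ofLp := by
  funext p
  rw [mft, ft, ← (PiLp.volume_preserving_toLp (Fin 4)).integral_comp
    (MeasurableEquiv.toLp 2 V).measurableEmbedding]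
  refine integral_congr_ae (.of_forall fun x => ?_)
  simp only [P352.mdot_eq, P352.fl_apply, mul_comm]

/-- the inverse of the mass squared -/
def iv (p : V) : ℂ := ((mu p)⁻¹ : ℝ)

lemma meas_iv : Measurable iv := by unfold iv; fun_prop

lemma mass_eq (p : Mink) : mass2 p = mu p.ofLp := P352.mdot_eq p p

lemma im_eq (p : Mink) : (im p : ℂ) = iv p.ofLp := by rw [im, iv, mass_eq]

/-- the inverse of the reference function -/
def k0 (p : V) : ℂ := (ft g0 p)⁻¹

lemma meas_k0 : Measurable k0 := cont_k.measurable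

lemma meas_k1 : Measurable fun p => iv p * k0 p := meas_iv.mul meas_k0

lemma int7 : IntegrableOn (fun p => Wt.Lm (mu p) * ((1 + ‖p‖) ^ 7)⁻¹) Fc := by
  obtain ⟨K, -, h⟩ := Wt.thinI
  obtain ⟨F0, h1, -, h2⟩ := h 1 one_pos
  refine (h1.const_mul 32).mono' (Measurable.aestronglyMeasurable (by fun_prop))
    ((ae_fc _).mono fun p hp => ?_)
  have a1 := Wt.Lm_pos ((mem_Fc p).1 hp).2
  have a2 := ((mem_Fc' p).1 hp).1
  have a3 := h2 p hp
  have n := norm_nonneg p
  have a5 : ‖pm p‖ ≤ 2 * ‖p‖ := max_le (abs_be_le p) ((norm_tx_le p).trans (by linarith))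
  have a6 : al p ≤ ‖p‖ := (le_abs_self _).trans (abs_al_le p)
  simp only [one_mul] at a3
  rw [Real.norm_of_nonneg (by positivity)]
  refine le_trans ?_ (mul_le_mul_of_nonneg_left a3 (by norm_num))
  rw [mul_assoc (Wt.Lm _), mul_left_comm _ (Wt.Lm _), ← mul_inv, ← div_eq_mul_inv 32]
  gcongr
  rw [le_div_iff₀ (by positivity), inv_mul_le_iff₀ (by positivity)]
  calc _ ≤ (2 * (1 + ‖p‖)) ^ 5 * (1 + ‖p‖) ^ 2 := by gcongr; linarith
    _ = _ := by ring

variable {D : Type*} [NormedAddCommGroup D] [InnerProductSpace ℂ D] {c : Bs D}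
  {v : Completion D} {r φ : V → ℂ} {Λ : Sch →L[ℂ] Completion D}

/-- the calculus of the translations on `Mink` -/
def cm (c : Bs D) : SN.Calc Mink (Completion D) := c.bt.toCalc.map tl meas_tl

/-- the measure of `r(P) v` on `Mink` -/
abbrev ms (c : Bs D) (v : Completion D) (r : V → ℂ) : Measure Mink :=
  mz (cm c) v fun p => r p.ofLp

lemma ms_eq (hr : Measurable r) : ms c v r = ((c.nu v).withDensity (sq2 r)).map tl :=
  (map_wd (c.nu v) meas_tl (f := fun p : Mink => sq2 r p.ofLp)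
    ((meas_sq2 hr).comp meas_of)).symm

lemma ms_dom (hr : Measurable r) (hφ : Measurable φ) :
    MemLp (fun p : Mink => φ p.ofLp) 2 (ms c v r) ↔ c.bt.Dom (fun p => φ p * r p) v :=
  (mz_dom (hr.comp meas_of) (hφ.comp meas_of)).trans
    (SN.Calc.map_dom meas_tl ((hφ.mul hr).comp meas_of) v)

/-- scalar distributions whose two point measure is of the order `μ ^ 2` up to logarithms -/
structure Sc (c : Bs D) (Λ : Sch →L[ℂ] Completion D) : Prop where
  rel : ∀ f, c.bt.Phi (ft g0) (Λ f) = c.bt.Phi (ft (ev f)) (Λ gS)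
  lor : ∀ L (hL : IsLor L), Ug c.Q 1 L 0 (Λ (Grp.simS one_pos hL 0 gS)) = Λ gS
  bd : ∃ κ : ℝ≥0, c.nu (Λ gS) ≤ κ • (volume.restrict Fc).withDensity fun p =>
    ENNReal.ofReal (‖ft g0 p‖ ^ 2 * mu p ^ 2 * Wt.Lm (mu p))

theorem sc_of {J : ℕ} {Λ : ℝ → Sch →L[ℂ] Completion D}
    (h : Mul c 4 J fun τ (_ : Fin 0 → Ix) => Λ τ) (hp : ∀ τ, inner ℂ c.Om (Λ τ gS) = 0) (τ : ℝ) :
    Sc c (Λ τ) := by
  have hv : Vl c J (ft g0) (fun τ => Λ τ gS) 2 2 := by
    have := h.ml.vl wt_g0.bd (K := fun _ => 1) ⟨⟨.const 1, fun _ => one_ne_zero,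
      continuousOn_const⟩, fun A J => by simpa [sy] using SN.Bd.const 1⟩ Fin.elim0
    simpa [Zf, Zs, sy, c.bt.one, show (4 : ℝ) / 2 = 2 by norm_num] using this
  refine ⟨h.rel τ Fin.elim0, fun L hL => ?_, ?_⟩
  · simpa using (h.cov τ Fin.elim0 1 L 0 gS _ one_pos hL (Grp.simS_apply one_pos hL 0 gS)).symm
  obtain ⟨κ, e⟩ := hv.bound (wt_g0.mono (subset_univ _))
  obtain ⟨C, C0, hC⟩ := log_le_rpow (2 * J) (1 / 2) τ (show (0 : ℝ) < 1 / 4 by norm_num)
  replace e := e τ
  rw [restrict_eq_self_of_ae_mem (hv.high wt_g0 (by norm_num) hp τ)] at e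
  refine ⟨κ * C.toNNReal, e.trans ?_⟩
  rw [mul_smul, ENNReal.smul_def C.toNNReal, ← withDensity_smul' _ _ ENNReal.coe_ne_top]
  refine Measure.le_iff'.2 fun S => mul_le_mul_right (Measure.le_iff'.1 (withDensity_mono
    ((ae_fc _).mono fun p hp => ?_)) S) _
  have := hC (mu p) ((mem_Fc p).1 hp).2
  rw [show 1 / 2 * Real.log (mu p) = lm p by rw [lm]; ring] at this
  rw [Pi.smul_apply, smul_eq_mul, ← ENNReal.ofReal, ← ENNReal.ofReal_mul C0]
  refine ENNReal.ofReal_le_ofReal ?_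
  rw [dn, show (2 : ℝ) * 2 - 2 * 2 = 0 by norm_num, show (2 : ℝ) * 2 - 2 = 2 by norm_num,
    Real.rpow_zero, Real.rpow_two, one_mul, mul_left_comm C]
  exact mul_le_mul_of_nonneg_left this (by positivity)

namespace Sc

variable (h : Sc c Λ)
include h

lemma fc : ∀ᵐ p ∂c.nu (Λ gS), p ∈ Fc := by
  obtain ⟨κ, e⟩ := h.bd
  exact e.absolutelyContinuous (Measure.smul_absolutelyContinuous (ae_wd (ae_fc _) _))

lemma temp (hr : Measurable r) (hb : ∀ p ∈ Fc, ‖r p‖ * mu p ≤ 4 * (1 + ‖p‖) ^ 2) :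
    (ms c (Λ gS) fun p => r p * k0 p).HasTemperateGrowth := by
  obtain ⟨κ, e⟩ := h.bd
  have m : Measurable fun p => r p * k0 p := hr.mul meas_k0
  have m0 := (bd_ft g0_in.1).1
  have m1 := meas_tl
  refine ⟨11, ?_⟩
  rw [ms_eq m, integrable_map_measure (Measurable.aestronglyMeasurable (by fun_prop))
    meas_tl.aemeasurable, integrable_withDensity_iff_integrable_smul' (meas_sq2 m)
      (.of_forall fun _ => ENNReal.ofReal_lt_top)]
  refine Integrable.mono_measure (Integrable.smul_measure_nnreal ?_) e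
  rw [integrable_withDensity_iff_integrable_smul' (by fun_prop)
    (.of_forall fun _ => ENNReal.ofReal_lt_top)]
  refine (int7.const_mul 16).mono' (Measurable.aestronglyMeasurable (by
    have := meas_sq2 m; fun_prop)) ((ae_fc _).mono fun p hp => ?_)
  have a0 := ((mem_Fc p).1 hp).2
  have a1 := Wt.Lm_pos a0
  have a2 := norm_pos_iff.2 (g0_ne p)
  have a3 : ‖p‖ ≤ ‖tl p‖ := (pi_norm_le_iff_of_nonneg (norm_nonneg _)).2 fun i =>
    PiLp.norm_apply_le (tl p) i
  have n := norm_nonneg p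
  have a4 : (1 + ‖tl p‖) ^ (-((11 : ℕ) : ℝ)) ≤ ((1 + ‖p‖) ^ 11)⁻¹ := by
    rw [Real.rpow_neg (by positivity), Real.rpow_natCast]
    gcongr
  simp only [sq2, smul_eq_mul, Function.comp_apply]
  rw [ENNReal.toReal_ofReal (by positivity), ENNReal.toReal_ofReal (by positivity),
    Real.norm_of_nonneg (by positivity)]
  calc _ = (‖r p‖ * mu p) ^ 2 * (Wt.Lm (mu p) * (1 + ‖tl p‖) ^ (-((11 : ℕ) : ℝ))) := by
        rw [k0, norm_mul, norm_inv]
        field_simp
    _ ≤ (4 * (1 + ‖p‖) ^ 2) ^ 2 * (Wt.Lm (mu p) * ((1 + ‖p‖) ^ 11)⁻¹) := by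
        have := hb p hp
        gcongr
    _ = _ := by field_simp; norm_num

lemma temp0 : (ms c (Λ gS) k0).HasTemperateGrowth := by
  simpa using h.temp (r := fun _ => 1) measurable_const fun p _ => by
    have := (le_abs_self _).trans (abs_mdot_le p p)
    rw [norm_one, one_mul, mu]
    nlinarith [norm_nonneg p]

lemma temp1 : (ms c (Λ gS) fun p => iv p * k0 p).HasTemperateGrowth :=
  h.temp meas_iv fun p hp => by
    have a0 := ((mem_Fc p).1 hp).2
    rw [iv, Complex.norm_real, Real.norm_of_nonneg (by positivity), inv_mul_cancel₀ a0.ne']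
    nlinarith [norm_nonneg p]

omit h in
lemma dom (hr : Measurable r) (t : (ms c v r).HasTemperateGrowth) (f : Sch) :
    c.bt.Dom (fun p => ft (ev f) p * r p) v :=
  (ms_dom hr (bd_ft ⟨f, rfl⟩).1).1 (mft_eq (ofSch f) ▸ mft_memLp t (ofSch f))

lemma psi (f : Sch) : c.bt.Psi (fun p => ft (ev f) p * k0 p) (Λ gS) = Λ f := by
  refine Phi_inj (c := c) wt_g0.bd g0_ne ?_
  rw [SN.Calc.Phi_Psi wt_g0.bd (dom meas_k0 h.temp0 f), h.rel, ← SN.Calc.Psi_bd (bd_ft ⟨f, rfl⟩)]
  congr 1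
  funext p
  rw [k0, mul_comm, inv_mul_cancel_right₀ (g0_ne p)]

lemma inv (f : Sch) : c.bt.Dom iv (Λ f) ∧
    c.bt.Psi iv (Λ f) = c.bt.Psi (fun p => ft (ev f) p * (iv p * k0 p)) (Λ gS) := by
  have d0 := dom meas_k0 h.temp0 f
  have d1 := dom meas_k1 h.temp1 f
  simp only [mul_left_comm (ft (ev f) _)] at d1 ⊢
  rw [← h.psi f]
  exact ⟨(SN.Calc.dom_Psi d0 meas_iv).2 d1, SN.Calc.Psi_Psi d0 meas_iv d1⟩

theorem cont : Continuous fun f => c.bt.Psi iv (Λ f) := by
  have m : Measurable fun p : Mink => iv p.ofLp * k0 p.ofLp := meas_k1.comp meas_of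
  refine ((JL (cm c) (Λ gS) m).continuous.comp ((P352.H246.continuous_toL h.temp1).comp
    ofSch.continuous)).congr fun f => ?_
  rw [(h.inv f).2]
  refine (JL_toLp m (P352.continuous_mft _).measurable (mft_memLp h.temp1 _)).trans ?_
  rw [mft_eq]
  rfl

theorem box {f g : Sch} (e : ev g = P352.H246.box (ev f)) : c.bt.Psi iv (Λ g) = -Λ f := by
  rw [(h.inv g).2, ← h.psi f, ← SN.Calc.Psi_neg (dom meas_k0 h.temp0 f)]
  refine SN.Calc.Psi_congr_ae (dom meas_k1 h.temp1 g)
    (dom meas_k0 h.temp0 f).1.neg (h.fc.mono fun p hp => ?_)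
  have a0 : (mu p : ℂ) ≠ 0 := Complex.ofReal_ne_zero.2 ((mem_Fc p).1 hp).2.ne'
  simp only [e, ft_box ⟨f, rfl⟩, iv, Complex.ofReal_inv]
  field_simp

theorem ok : Ok (ms c (Λ gS) k0) where
  temp := h.temp0
  lor L hL := by
    have hL' := isLor_linv hL
    have m := (conf_lor hL).cont.measurable
    have := rho_map (c := c) (Grp.uni c.bR 1 (linv L) 0) (conf_lor hL') one_pos m
      (conf_lor hL').cont.measurable (ug_ut one_pos hL')
      (fun p y => by rw [← md_LL hL p, sim_linv hL]) (sim_linv hL) (sim_linv2 hL)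
      ((h.rel _).trans (by rw [show ev (Grp.simS one_pos hL' 0 gS) = fun z => g0 (sim 1 (linv L) 0 z)
        from funext (Grp.simS_apply one_pos hL' 0 gS)]))
      ((h.lor _ hL').trans (by simp : Λ gS = ((1 : ℝ) : ℂ) • Λ gS))
    simp only [one_pow, mul_one, inv_one, ENNReal.ofReal_one, one_smul] at this
    refine ⟨(P352.continuous_lam L).measurable, ?_⟩
    rw [ms_eq meas_k0, map_map (P352.continuous_lam L).measurable meas_tl,
      show lam L ∘ tl = tl ∘ sim 1 L 0 from funext fun p => by ext n; simp [sim],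
      ← map_map meas_tl m]
    exact congrArg _ this
  pos := by
    rw [ms_eq meas_k0]
    refine (MeasurableEquiv.toLp 2 V).measurableEmbedding.ae_map_iff.2
      ((ae_wd h.fc _).mono fun p hp => ⟨hp.2, ?_⟩)
    exact (mass_eq _).symm ▸ hp.1
  l2 F := by
    simp only [im_eq, mft_eq]
    refine (ms_dom (φ := fun p => iv p * ft (fl F) p) meas_k0
      (meas_iv.mul (bd_ft (P352.isTest_fl F)).1)).2 ?_
    have := dom meas_k1 h.temp1 (toSchL F)
    simp only [mul_left_comm (ft _ _), mul_assoc] at this ⊢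
    exact this

/-- **wedge relations survive the division by the mass squared** -/
theorem wed {L : Ix → V} (hL : IsLor L) (a : V) {x y : Completion D}
    (e : ∀ G, P352.IsTest (MW (Wed L a 1)) G →
      inner ℂ x (Λ (toSchL G)) = inner ℂ (Λ (toSchL (conjS G))) y)
    {F : 𝓢(Mink, ℂ)} (hF : P352.IsTest (MW (Wed L a 1)) F) :
    inner ℂ x (c.bt.Psi iv (Λ (toSchL F))) = inner ℂ (c.bt.Psi iv (Λ (toSchL (conjS F)))) y := by
  have m : Measurable fun p : Mink => k0 p.ofLp := meas_k0.comp meas_of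
  have key : ∀ w, ∃ u, MemLp u 2 (ms c (Λ gS) k0) ∧ ∀ G,
      inner ℂ (Λ (toSchL G)) w = ∫ p, conj (mft G p) * u p ∂ms c (Λ gS) k0 ∧
      inner ℂ (c.bt.Psi iv (Λ (toSchL G))) w =
        ∫ p, conj (mft G p) * ((im p : ℂ) * u p) ∂ms c (Λ gS) k0 := fun w => by
    obtain ⟨u, h1, h2⟩ := riesz (cm c) (Λ gS) m w
    have mf := fun G => (P352.continuous_mft G).measurable
    refine ⟨u, h1, fun G => ⟨?_, ?_⟩⟩
    · rw [← h.psi, ← h2 _ (mf G) (mft_memLp h.temp0 G), mft_eq]
      rfl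
    · have := h2 (fun p => (im p : ℂ) * mft G p)
        ((Complex.measurable_ofReal.comp P352.H246.measurable_im).mul (mf G)) (h.ok.l2 G)
      rw [(h.inv _).2]
      refine Eq.trans ?_ (this.trans (integral_congr_ae (.of_forall fun p => ?_)))
      · simp only [mul_left_comm (ft _ _), im_eq, mft_eq, mul_assoc]
        rfl
      · simp only [map_mul, Complex.conj_ofReal]
        ring
  obtain ⟨u, h1, h2⟩ := key x
  obtain ⟨w, h3, h4⟩ := key y
  have := h.ok.wed_im hL a (η := fun p => conj (u p)) h1.star h3 (fun G hG => by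
    rw [← (h4 _).1, ← e G hG, ← inner_conj_symm, (h2 G).1, ← integral_conj]
    simp) F hF
  rw [(h4 _).2, ← this, ← inner_conj_symm, (h2 F).2, ← integral_conj]
  simp

end Sc

/-- covariance of the division -/
theorem psi_ug {s : ℝ} {L : Ix → V} (hs : 0 < s) (hL : IsLor L) (a : V) (hv : c.bt.Dom iv v) :
    c.bt.Psi iv (Ug c.Q s L a v) = ((s ^ 2 : ℝ) : ℂ) • Ug c.Q s L a (c.bt.Psi iv v) := by
  obtain ⟨h1, h2⟩ := SN.Calc.Psi_intertwine (C' := c.bt.toCalc) (W := Ug c.Q s L a)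
    (Kin.du_meas s L) (fun g hg => Phi_W (A := sim s L 0) (Kin.du_meas s L) (fun y => by
      ext z
      simp only [ContinuousLinearMap.mul_apply, Br.Ut_apply, Ug_apply _ hs hL]
      exact Kin.Ue_tr c.bR hs hL a y z) (Kin.du_pair s hL) hg v) hv
  rw [← h2, ← SN.Calc.Psi_smul _ h1]
  congr 1
  funext p
  rw [iv, iv, ← Complex.ofReal_mul, show mu (Kin.du s L p) = s ^ 2 * mu p from Kin.du_sq s hL p,
    mul_inv, mul_inv_cancel_left₀ (by positivity)]

end

end Vale.Agent.P352L.Two.Sb
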