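import Vale.Agent.P352.H246.Alg
import Vale.Agent.P352X.SN.Psi

/-!
# P352L, job SB: the inverse mass in wedge relations; functions of the momentum applied to a vector
-/

set_option linter.all false

noncomputable section

open MeasureTheory SchwartzMap Filter Topology
open Complex hiding im
open scoped SchwartzMap ComplexConjugate ENNReal

namespace Vale.Agent.P352L.SB

open Vale.Agent.P352 Vale.Agent.P352.H246 Vale.Agent.P352X
open GF (Ix V)

/-- Lorentz invariant tempered measures on the open cone for which the inverse mass is allowed -/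
structure Ok (μ : Measure Mink) : Prop where
  temp : μ.HasTemperateGrowth
  lor : ∀ L, GF.IsLor L → MeasurePreserving (lam L) μ μ
  pos : ∀ᵐ p ∂μ, 0 < p 0 ∧ 0 < mass2 p
  l2 : ∀ f, MemLp (fun p => (im p : ℂ) * mft f p) 2 μ

namespace Ok

variable {μ : Measure Mink} (S : Ok μ)
include S

lemma good : GoodMeasure μ where
  temp := S.temp
  cone := measure_eq_zero_iff_ae_notMem.2 (S.pos.mono fun p hp h => h ⟨hp.1.le, hp.2.le⟩)
  boost t := by
    rw [← lam_boost]
    exact S.lor _ (isLor_boost t)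
  rot := by
    rw [← lam_rot23]
    exact S.lor _ isLor_rot23

lemma lim_left (f : 𝓢(Mink, ℂ)) {η : Mink → ℂ} (hη : MemLp η 2 μ) :
    Tendsto (fun N : ℕ => ∫ p, mft f p * ((imN N p : ℂ) * η p) ∂μ) atTop
      (𝓝 (∫ p, mft f p * ((im p : ℂ) * η p) ∂μ)) := by
  apply tendsto_integral_of_dominated_convergence (fun p => ‖(im p : ℂ) * mft f p * η p‖)
  · intro N
    exact (continuous_mft f).aestronglyMeasurable.mul
      ((measurable_ofReal.comp (measurable_imN N)).aestronglyMeasurable.mul hη.1)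
  · exact ((S.l2 f).integrable_mul hη).norm
  · intro N
    refine Eventually.of_forall fun p => ?_
    simp only [norm_mul, norm_real, Real.norm_eq_abs]
    have := abs_imN_le N p
    calc ‖mft f p‖ * (|imN N p| * ‖η p‖) ≤ ‖mft f p‖ * (|im p| * ‖η p‖) := by gcongr
      _ = |im p| * ‖mft f p‖ * ‖η p‖ := by ring
  · filter_upwards [S.pos] with p hp
    have h1 := (continuous_ofReal.tendsto _).comp (tendsto_imN hp.2)
    exact (h1.mul_const _).const_mul _

lemma wedge_im {η ζ : Mink → ℂ} (hη : MemLp η 2 μ) (hζ : MemLp ζ 2 μ)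
    (h : ∀ f, IsTest wedge f →
      ∫ p, mft f p * η p ∂μ = ∫ p, conj (mft (conjS f) p) * ζ p ∂μ)
    (f : 𝓢(Mink, ℂ)) (hf : IsTest wedge f) :
    ∫ p, mft f p * ((im p : ℂ) * η p) ∂μ =
      ∫ p, conj (mft (conjS f) p) * ((im p : ℂ) * ζ p) ∂μ := by
  have h1 := S.lim_left f hη
  have h2 := S.lim_left (conjS f) (η := fun p => conj (ζ p)) hζ.star
  have h3 := (Complex.continuous_conj.tendsto _).comp h2
  have e : ∀ (m : Mink → ℝ), conj (∫ p, mft (conjS f) p * ((m p : ℂ) * conj (ζ p)) ∂μ) =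
      ∫ p, conj (mft (conjS f) p) * ((m p : ℂ) * ζ p) ∂μ := by
    intro m
    rw [← integral_conj]
    congr 1
    ext p
    simp
  rw [e] at h3
  refine tendsto_nhds_unique h1 (h3.congr fun N => ?_)
  simp only [Function.comp_apply]
  rw [e]
  exact (wedge_dual S.good hη hζ h (measurable_imN N) (imN_le N)
    (fun t p => imN_congr N (mdot_boost t p p)) (fun p => imN_congr N (mdot_rotPi p p)) f hf).symm

lemma transport_l {L : Ix → V} (hL : GF.IsLor L) (a : V) (f : 𝓢(Mink, ℂ)) (η : Mink → ℂ) :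
    ∫ p, mft f p * η p ∂μ = ∫ p, mft (simS 1 one_pos hL a f) p *
      (chr (WithLp.toLp 2 a) (lam L p) * η (lam L p)) ∂μ := by
  rw [← (S.lor L hL).integral_comp (lamE hL).toHomeomorph.measurableEmbedding]
  congr 1
  ext p
  rw [mft_of_simS hL a]
  ring

lemma transport_r {L : Ix → V} (hL : GF.IsLor L) (a : V) (f : 𝓢(Mink, ℂ)) (ζ : Mink → ℂ) :
    ∫ p, conj (mft (conjS f) p) * ζ p ∂μ = ∫ p, conj (mft (conjS (simS 1 one_pos hL a f)) p) *
      (conj (chr (WithLp.toLp 2 a) (lam L p)) * ζ (lam L p)) ∂μ := by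
  rw [← (S.lor L hL).integral_comp (lamE hL).toHomeomorph.measurableEmbedding]
  congr 1
  ext p
  rw [mft_of_simS hL a, conjS_simS, map_mul]
  ring

/-- **the inverse mass can be inserted into a wedge relation** -/
theorem wed_im {L : Ix → V} (hL : GF.IsLor L) (a : V) {η ζ : Mink → ℂ} (hη : MemLp η 2 μ)
    (hζ : MemLp ζ 2 μ)
    (h : ∀ f, IsTest (MW (Wed L a 1)) f →
      ∫ p, mft f p * η p ∂μ = ∫ p, conj (mft (conjS f) p) * ζ p ∂μ)
    (f : 𝓢(Mink, ℂ)) (hf : IsTest (MW (Wed L a 1)) f) :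
    ∫ p, mft f p * ((im p : ℂ) * η p) ∂μ =
      ∫ p, conj (mft (conjS f) p) * ((im p : ℂ) * ζ p) ∂μ := by
  have hη' : MemLp (fun p => chr (WithLp.toLp 2 a) (lam L p) * η (lam L p)) 2 μ :=
    (memLp_chr_mul hη _).comp_measurePreserving (S.lor L hL)
  have hζ' : MemLp (fun p => conj (chr (WithLp.toLp 2 a) (lam L p)) * ζ (lam L p)) 2 μ :=
    (memLp_conj_chr_mul hζ _).comp_measurePreserving (S.lor L hL)
  have key := S.wedge_im hη' hζ' (fun g hg => by
    have := h (simI hL a g) ((isTest_simS hL a _).1 (by rwa [simS_simI]))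
    rw [S.transport_l hL a, S.transport_r hL a, simS_simI] at this
    exact this) (simS 1 one_pos hL a f) ((isTest_simS hL a f).2 hf)
  have him : ∀ p, im (lam L p) = im p := by
    intro p
    unfold im
    have em : mass2 (lam L p) = mass2 p := mdot_lam hL p p
    rw [em]
  rw [S.transport_l hL a, S.transport_r hL a]
  simp only [him]
  convert key using 1
  · congr 1
    ext p
    ring
  · congr 1
    ext p
    ring

end Ok

/-! ## the cyclic subspace of a vector -/

section cyc

variable {X : Type*} [MeasurableSpace X] {H : Type*} [NormedAddCommGroup H]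
  [InnerProductSpace ℂ H] [CompleteSpace H] {C : SN.Calc X H} {v : H} {r φ ψ : X → ℂ}

/-- the measure of `r(P) v` -/
def mz (C : SN.Calc X H) (v : H) (r : X → ℂ) : Measure X :=
  (C.nu v).withDensity fun p => ENNReal.ofReal (‖r p‖ ^ 2)

lemma mz_dom (hr : Measurable r) (hφ : Measurable φ) :
    MemLp φ 2 (mz C v r) ↔ C.Dom (fun p => φ p * r p) v := by
  rw [SN.Calc.dom_iff (f := fun p => φ p * r p) (hφ.mul hr), memLp_two_iff_integrable_sq_norm hφ.aestronglyMeasurable, mz,
    integrable_withDensity_iff_integrable_smul' (hr.norm.pow_const 2).ennreal_ofReal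
      (.of_forall fun _ => ENNReal.ofReal_lt_top)]
  refine integrable_congr (.of_forall fun p => ?_)
  simp only [ENNReal.toReal_ofReal (sq_nonneg _), smul_eq_mul, norm_mul]
  ring

lemma mz_ae (hr : Measurable r) (h : φ =ᵐ[mz C v r] ψ) :
    (fun p => φ p * r p) =ᵐ[C.nu v] fun p => ψ p * r p := by
  filter_upwards [(ae_withDensity_iff (hr.norm.pow_const 2).ennreal_ofReal).1 h] with p hp
  by_cases h0 : r p = 0
  · simp [h0]
  · rw [hp (ENNReal.ofReal_pos.2 (by positivity)).ne']

lemma lp_meas {m : Measure X} (φ : Lp ℂ 2 m) : Measurable φ := (Lp.stronglyMeasurable φ).measurable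

lemma lp_dom (hr : Measurable r) (φ : Lp ℂ 2 (mz C v r)) : C.Dom (fun p => φ p * r p) v :=
  (mz_dom hr (lp_meas φ)).1 (Lp.memLp φ)

/-- `φ ↦ (φ r)(P) v` -/
def JL (C : SN.Calc X H) (v : H) (hr : Measurable r) : Lp ℂ 2 (mz C v r) →L[ℂ] H :=
  LinearMap.mkContinuous
    { toFun := fun φ => C.Psi (fun p => φ p * r p) v
      map_add' := fun φ ψ => by
        rw [← SN.Calc.Psi_add (lp_dom hr φ) (lp_dom hr ψ)]
        refine (SN.Calc.Psi_congr_ae (lp_dom hr _) (((lp_meas φ).add (lp_meas ψ)).mul hr)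
          (mz_ae hr (Lp.coeFn_add φ ψ))).trans (congrArg (C.Psi · v) (funext fun p => ?_))
        exact add_mul _ _ _
      map_smul' := fun a φ => by
        rw [RingHom.id_apply, ← SN.Calc.Psi_smul a (lp_dom hr φ)]
        refine (SN.Calc.Psi_congr_ae (lp_dom hr _) (((lp_meas φ).const_smul a).mul hr)
          (mz_ae hr (Lp.coeFn_smul a φ))).trans (congrArg (C.Psi · v) (funext fun p => ?_))
        exact mul_assoc _ _ _ } 1 fun φ => by
    refine (pow_le_pow_iff_left₀ (norm_nonneg _) (by positivity) two_ne_zero).1 (le_of_eq ?_)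
    have h := SN.l2_norm_sq (Lp.memLp φ)
    rw [Lp.toLp_coeFn] at h
    rw [one_mul, h]
    refine Eq.trans ?_ (integral_withDensity_eq_integral_toReal_smul
      (hr.norm.pow_const 2).ennreal_ofReal (.of_forall fun _ => ENNReal.ofReal_lt_top) _).symm
    refine (SN.Calc.norm_Psi_sq (lp_dom hr φ)).trans (integral_congr_ae (.of_forall fun p => ?_))
    simp only [ENNReal.toReal_ofReal (sq_nonneg _), smul_eq_mul, norm_mul]
    ring

lemma JL_toLp (hr : Measurable r) (hφ : Measurable φ) (h : MemLp φ 2 (mz C v r)) :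
    JL C v hr (h.toLp φ) = C.Psi (fun p => φ p * r p) v :=
  SN.Calc.Psi_congr_ae (lp_dom hr _) (hφ.mul hr) (mz_ae hr h.coeFn_toLp)

theorem riesz (C : SN.Calc X H) (v : H) (hr : Measurable r) (w : H) :
    ∃ u, MemLp u 2 (mz C v r) ∧ ∀ φ, Measurable φ → MemLp φ 2 (mz C v r) →
      inner ℂ (C.Psi (fun p => φ p * r p) v) w = ∫ p, conj (φ p) * u p ∂mz C v r := by
  refine ⟨_, Lp.memLp (ContinuousLinearMap.adjoint (JL C v hr) w), fun φ hφ h => ?_⟩
  rw [← JL_toLp hr hφ h, ← ContinuousLinearMap.adjoint_inner_right, ← SN.l2_inner h (Lp.memLp _),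
    Lp.toLp_coeFn]

end cyc

end Vale.Agent.P352L.SB

end
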